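import Vale.Agent.Lib.P028L.KLspL
import Vale.Agent.Lib.P028K.PS

/-! Numerics and the main set for the parameters depending on `Y`. -/

open Finset Filter

namespace Vale.Agent.Lib.P028L

open Vale.Agent.Lib.P028
open Vale.Agent.Lib.P028T
open Vale.Agent.Lib.P028K

noncomputable section

lemma ev_logs : ∀ᶠ L : ℝ in atTop, Real.log L ≤ (1 / 480) * L ^ (1 / 2 : ℝ) ∧ 5 + 4 * Real.log (2 * L + 2) ≤ 5 * Real.log L ∧
    (6:ℝ) ≤ Real.log L := by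
  have hA : ∀ᶠ L : ℝ in atTop, Real.log L ≤ (1 / 480) * L ^ (1 / 2 : ℝ) := by
    have := (isLittleO_log_rpow_atTop (r := 1 / 2) (by norm_num)).bound (c := 1 / 480) (by norm_num)
    filter_upwards [this, eventually_ge_atTop 1] with L hL hL1
    have h0 : 0 ≤ Real.log L := Real.log_nonneg hL1
    rwa [Real.norm_of_nonneg h0, Real.norm_of_nonneg (by positivity)] at hL
  have hC : ∀ᶠ L : ℝ in atTop, 5 + 4 * Real.log (2 * L + 2) ≤ 5 * Real.log L := by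
    have h1 : Tendsto Real.log atTop atTop := Real.tendsto_log_atTop
    filter_upwards [h1.eventually_ge_atTop (5 + 4 * Real.log 4), eventually_ge_atTop 1] with L hL hL1
    have hLpos : 0 < L := by linarith
    have h2 : Real.log (2 * L + 2) ≤ Real.log 4 + Real.log L := by
      rw [← Real.log_mul (by norm_num) hLpos.ne']
      exact Real.log_le_log (by positivity) (by linarith)
    linarith
  have hD : ∀ᶠ L : ℝ in atTop, (6:ℝ) ≤ Real.log L := Real.tendsto_log_atTop.eventually_ge_atTop _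
  filter_upwards [hA, hC, hD] with L h1 h2 h3
  exact ⟨h1, h2, h3⟩

/-- Large `r`, parameters depending on `Y`. -/
lemma N3_L (L g lam : ℝ) (s T X : ℕ) (hg : g = Real.log L) (hL1 : 1 ≤ L)
    (hLA : Real.log L ≤ (1 / 480) * L ^ (1 / 2 : ℝ)) (hLC : 5 + 4 * Real.log (2 * L + 2) ≤ 5 * Real.log L)
    (hLD : (6:ℝ) ≤ Real.log L) (hg64 : 64 ≤ g) (hgs : Real.exp 25 < s)
    (hlam : 1000 ≤ lam) (hlamL : lam ≤ L)
    (hT : lam ^ (16 * s) ≤ T) (hlogT : Real.log T ≤ (5 / 4) * (1 / g) * L) (hlogX : L / 2 ≤ Real.log X) (hX1 : 1 ≤ X) :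
    ∃ η : ℝ, 0 < η ∧ η ≤ 1 / 4 ∧ 2 ≤ ⌈(T:ℝ) ^ ((1:ℝ) / (s:ℝ))⌉₊ ∧
      (lam ^ 2) ^ (s + 1) * ((X:ℝ) ^ (1 - η) *
        Real.exp (3 * ((⌈(T:ℝ) ^ ((1:ℝ) / (s:ℝ))⌉₊ : ℕ):ℝ) ^ η * Mer ⌈(T:ℝ) ^ ((1:ℝ) / (s:ℝ))⌉₊)) ≤ X := by
  have hLpos : 0 < L := by linarith
  have hg0 : 0 < g := by linarith
  have hrp : L ^ ((100 / g) / 4) = Real.exp 25 := by
    rw [Real.rpow_def_of_pos hLpos, ← hg]
    congr 1
    field_simp
    norm_num
  have h400 : (400:ℝ) ≤ L ^ ((100 / g) / 4) := by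
    rw [hrp]
    have := Real.add_one_le_exp (25:ℝ)
    have h2 : Real.exp 25 = Real.exp 5 ^ 5 := by
      rw [← Real.exp_nat_mul]
      norm_num
    rw [h2]
    have h3 : (6:ℝ) ≤ Real.exp 5 := by
      have := Real.add_one_le_exp (5:ℝ)
      linarith
    calc (400:ℝ) ≤ 6 ^ 5 := by norm_num
      _ ≤ _ := pow_le_pow_left₀ (by norm_num) h3 5
  have hs : L ^ ((100 / g) / 4) < s := by
    rw [hrp]
    exact hgs
  have hs400 : (400:ℝ) < s := lt_of_le_of_lt h400 hs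
  have hspos : (0:ℝ) < s := by linarith
  have hlampos : 0 < lam := by linarith
  have hlog1000 : (6:ℝ) ≤ Real.log 1000 := by
    have h512 : Real.log 512 ≤ Real.log 1000 := Real.log_le_log (by norm_num) (by norm_num)
    have h2 : Real.log 512 = 9 * Real.log 2 := by
      rw [show (512:ℝ) = 2 ^ 9 by norm_num, Real.log_pow]
      norm_num
    have := Real.log_two_gt_d9
    linarith
  have hloglam : 6 ≤ Real.log lam := hlog1000.trans (Real.log_le_log (by norm_num) hlam)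
  have hTpos : (0:ℝ) < T := lt_of_lt_of_le (by positivity) hT
  have h16 : 16 * (s:ℝ) * Real.log lam ≤ Real.log T := by
    have := Real.log_le_log (by positivity) hT
    rw [Real.log_pow] at this
    push_cast at this
    linarith
  obtain ⟨τ, hτ⟩ : ∃ τ, τ = Real.log T / s := ⟨_, rfl⟩
  have hτs : τ * s = Real.log T := by
    rw [hτ]
    field_simp
  have hτ16 : 16 * Real.log lam ≤ τ := by
    rw [hτ, le_div_iff₀ hspos]
    linarith
  have hτ96 : 96 ≤ τ := by linarith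
  have hTexp : (T:ℝ) ^ ((1:ℝ) / (s:ℝ)) = Real.exp τ := by
    rw [Real.rpow_def_of_pos hTpos, hτ]
    congr 1
    ring
  rw [hTexp]
  obtain ⟨hz2, hlogzge, hlogzle⟩ := zfacts τ hτ96
  obtain ⟨η, h1, h2, h3⟩ := N3_mid (100 / g) (1 / g) L lam τ s T X _ (by positivity) (by positivity)
    (le_of_eq (by ring)) (by
      rw [div_le_div_iff₀ hg0 (by norm_num)]
      linarith) hLA h400 hLC hLD hL1 hlam hlamL hs hlogT hlogX hX1
    h16 hτs hz2 hlogzge hlogzle hτ96 hloglam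
  exact ⟨η, h1, h2, hz2, h3⟩

/-- Small `r`. -/
lemma N4_L (L g lam : ℝ) (r : ℕ) (hg : g = Real.log L) (hL1 : 1 ≤ L) (hg1 : 16384 ≤ g) (hlam1 : 1 ≤ lam) (hlamL : lam ≤ L)
    (hr : (r:ℝ) ≤ 1 + Real.sqrt g) : (lam ^ 2) ^ r ≤ Real.exp (g ^ 2 / 32) := by
  have hLpos : 0 < L := by linarith
  have hg0 : 0 < g := by linarith
  have hsq : 128 ≤ Real.sqrt g := by
    rw [show (128:ℝ) = Real.sqrt (128 ^ 2) by rw [Real.sqrt_sq (by norm_num)]]
    apply Real.sqrt_le_sqrt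
    norm_num
    linarith
  have hsq2 : Real.sqrt g * Real.sqrt g = g := Real.mul_self_sqrt hg0.le
  calc (lam ^ 2) ^ r = lam ^ (2 * r) := by rw [pow_mul]
    _ ≤ L ^ (2 * r) := by gcongr
    _ = Real.exp (((2 * r : ℕ):ℝ) * g) := by
        rw [hg, Real.exp_nat_mul, Real.exp_log hLpos]
    _ ≤ Real.exp (g ^ 2 / 32) := by
        apply Real.exp_le_exp.2
        push_cast
        have h1 : (r:ℝ) ≤ 2 * Real.sqrt g := by linarith
        have h2 : 2 * (r:ℝ) * g ≤ 2 * (2 * Real.sqrt g) * g := by gcongr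
        have h3 : 2 * (2 * Real.sqrt g) * g ≤ g ^ 2 / 32 := by
          have h4 : 128 * Real.sqrt g ≤ g := by
            calc 128 * Real.sqrt g ≤ Real.sqrt g * Real.sqrt g := by gcongr
              _ = g := hsq2
          nlinarith
        linarith

/-- Final numerics. -/
lemma N1_L (L g : ℝ) (hg : g = Real.log L) (hL1 : 1 ≤ L) (hg1 : 400 ≤ g) :
    (4 * L) ^ 6 * (17 * Real.exp (g ^ 2 / 32)) * Real.exp (6 * (5 + 4 * Real.log (2 * L + 2))) ≤ Real.exp (g ^ 2 / 8) := by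
  have hLpos : 0 < L := by linarith
  have hlog4 : Real.log 4 ≤ 2 := by
    have h3 : Real.log 4 = Real.log (4 / 2) + Real.log 2 := by
      rw [← Real.log_mul (by norm_num) (by norm_num)]
      norm_num
    have h5 : Real.log ((4:ℝ) / 2) = Real.log 2 := by norm_num
    have h4 := Real.log_two_lt_d9
    rw [h5] at h3
    linarith
  have h4L : Real.log (4 * L) = Real.log 4 + Real.log L := Real.log_mul (by norm_num) hLpos.ne'
  have h2L : Real.log (2 * L + 2) ≤ Real.log (4 * L) := by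
    apply Real.log_le_log (by positivity)
    have hLe : (1:ℝ) ≤ L := hL1
    have : L ≥ 1 := hLe
    nlinarith
  have h17 : (17:ℝ) ≤ Real.exp 3 := by
    have h : Real.exp 3 = Real.exp 1 ^ 3 := by
      rw [← Real.exp_nat_mul]
      norm_num
    rw [h]
    have h5 : (2.7:ℝ) ≤ Real.exp 1 := by
      have := Real.exp_one_gt_d9
      linarith
    calc (17:ℝ) ≤ 2.7 ^ 3 := by norm_num
      _ ≤ _ := pow_le_pow_left₀ (by norm_num) h5 3
  have hpw : (4 * L) ^ 6 = Real.exp (6 * Real.log (4 * L)) := by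
    have : (6:ℝ) = ((6:ℕ):ℝ) := by norm_num
    rw [this, Real.exp_nat_mul, Real.exp_log (by positivity)]
  rw [hpw]
  calc Real.exp (6 * Real.log (4 * L)) * (17 * Real.exp (g ^ 2 / 32)) * Real.exp (6 * (5 + 4 * Real.log (2 * L + 2)))
      ≤ Real.exp (6 * Real.log (4 * L)) * (Real.exp 3 * Real.exp (g ^ 2 / 32)) * Real.exp (6 * (5 + 4 * Real.log (2 * L + 2))) := by
        gcongr
    _ = Real.exp (6 * Real.log (4 * L) + 3 + g ^ 2 / 32 + 6 * (5 + 4 * Real.log (2 * L + 2))) := by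
        rw [Real.exp_add, Real.exp_add, Real.exp_add]
        ring
    _ ≤ Real.exp (g ^ 2 / 8) := by
        apply Real.exp_le_exp.2
        rw [← hg] at h4L
        have h6 : g ^ 2 = g * g := by ring
        have h7 : 400 * g ≤ g * g := by gcongr
        linarith

/-- The off-diagonal numerics. -/
lemma ev_off_L (C : ℝ) (hC : 0 < C) : ∀ᶠ L : ℝ in atTop,
    ∀ lam : ℝ, 1 ≤ lam → lam ≤ L → 12 * lam ^ 2 * Real.sqrt (3 * C * (1 + L)) ≤ Real.exp ((1 / (Real.log L)) / 4 * L) := by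
  have h1 : ∀ᶠ L : ℝ in atTop, Real.log L ^ 2 ≤ (1 / 1000) * L := by
    have := (Real.isLittleO_pow_log_id_atTop (n := 2)).bound (c := 1 / 1000) (by norm_num)
    filter_upwards [this, eventually_ge_atTop 1] with L hL hL1
    simp only [id] at hL
    rwa [Real.norm_of_nonneg (by positivity), Real.norm_of_nonneg (by linarith)] at hL
  have h2 : ∀ᶠ L : ℝ in atTop, Real.log (12 * (6 * C + 1)) + 3 ≤ Real.log L :=
    Real.tendsto_log_atTop.eventually_ge_atTop _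
  have h3 : ∀ᶠ L : ℝ in atTop, (1:ℝ) ≤ Real.log L := Real.tendsto_log_atTop.eventually_ge_atTop _
  filter_upwards [h1, h2, h3, eventually_ge_atTop 1] with L hL1 hL2 hL3 hL lam hlam1 hlam
  have hLpos : 0 < L := by linarith
  have hg0 : 0 < Real.log L := by linarith
  have hsq : Real.sqrt (3 * C * (1 + L)) ≤ (6 * C + 1) * L := by
    rw [Real.sqrt_le_left (by positivity)]
    have h2' : 3 * C * (1 + L) ≤ 6 * C * L := by nlinarith
    have h3' : 6 * C * L ≤ ((6 * C + 1) * L) ^ 2 := by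
      have h4 : (6 * C + 1) * L ≥ 1 := by nlinarith
      nlinarith [mul_pos hC hLpos]
    linarith
  have hA : 0 < 12 * (6 * C + 1) := by positivity
  have hcalc : 12 * lam ^ 2 * Real.sqrt (3 * C * (1 + L)) ≤ (12 * (6 * C + 1)) * L ^ 3 := by
    calc 12 * lam ^ 2 * Real.sqrt (3 * C * (1 + L)) ≤ 12 * L ^ 2 * ((6 * C + 1) * L) := by gcongr
      _ = (12 * (6 * C + 1)) * L ^ 3 := by ring
  refine hcalc.trans ?_
  have hexp : (12 * (6 * C + 1)) * L ^ 3 = Real.exp (Real.log (12 * (6 * C + 1)) + 3 * Real.log L) := by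
    rw [Real.exp_add, Real.exp_log hA]
    congr 1
    have : (3:ℝ) = ((3:ℕ):ℝ) := by norm_num
    rw [this, Real.exp_nat_mul, Real.exp_log hLpos]
  rw [hexp]
  apply Real.exp_le_exp.2
  have hform : (1 / Real.log L) / 4 * L = L / (4 * Real.log L) := by
    field_simp
  rw [hform, le_div_iff₀ (by positivity)]
  have h5 : Real.log (12 * (6 * C + 1)) + 3 * Real.log L ≤ 4 * Real.log L := by linarith
  have h6 : (Real.log (12 * (6 * C + 1)) + 3 * Real.log L) * (4 * Real.log L) ≤ (4 * Real.log L) * (4 * Real.log L) := by gcongr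
  have h7 : (4 * Real.log L) * (4 * Real.log L) = 16 * Real.log L ^ 2 := by ring
  linarith

/-- The eventual facts in `L`, `g = log L`. -/
lemma ev_all (C ν : ℝ) (hC : 0 < C) (hν : 0 < ν) : ∀ᶠ L : ℝ in atTop,
    (Real.log L ≤ (1 / 480) * L ^ (1 / 2 : ℝ) ∧ 5 + 4 * Real.log (2 * L + 2) ≤ 5 * Real.log L ∧ (6:ℝ) ≤ Real.log L) ∧
    (∀ lam : ℝ, 1 ≤ lam → lam ≤ L → 12 * lam ^ 2 * Real.sqrt (3 * C * (1 + L)) ≤ Real.exp ((1 / (Real.log L)) / 4 * L)) ∧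
    (16:ℝ) ≤ Real.exp ((ν / 2) * L) ∧ (1088:ℝ) ≤ Real.exp ((3 / 16) * L) ∧
    (8:ℝ) ≤ Real.exp ((3 * ν / 8) * L) ∧ (2:ℝ) ≤ Real.exp ((1 / (Real.log L)) / 4 * L) ∧ (2:ℝ) ≤ L ∧
    (Real.exp 26) ^ 2 ≤ Real.log L ∧ 8 / ν ≤ Real.log L ∧ (200:ℝ) ≤ L := by
  have hexp : ∀ a : ℝ, 0 < a → ∀ c : ℝ, ∀ᶠ L : ℝ in atTop, c ≤ Real.exp (a * L) := by
    intro a ha c
    have h1 : Tendsto (fun L : ℝ => a * L) atTop atTop := tendsto_id.const_mul_atTop ha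
    exact (Real.tendsto_exp_atTop.comp h1).eventually_ge_atTop c
  have hlg : ∀ c : ℝ, ∀ᶠ L : ℝ in atTop, c ≤ Real.log L := fun c =>
    Real.tendsto_log_atTop.eventually_ge_atTop c
  have hL4 : ∀ᶠ L : ℝ in atTop, Real.log L ≤ (1 / 4) * L := by
    have := Real.isLittleO_log_id_atTop.bound (c := 1 / 4) (by norm_num)
    filter_upwards [this, eventually_ge_atTop 1] with L hL hL1
    simp only [id] at hL
    rwa [Real.norm_of_nonneg (Real.log_nonneg hL1), Real.norm_of_nonneg (by linarith)] at hL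
  filter_upwards [ev_logs, ev_off_L C hC, hexp (ν / 2) (by positivity) 16, hexp (3 / 16) (by norm_num) 1088,
    hexp (3 * ν / 8) (by positivity) 8, hL4, hlg 1, eventually_ge_atTop 2, hlg ((Real.exp 26) ^ 2), hlg (8 / ν),
    eventually_ge_atTop 200] with L h1 h2 h3 h4 h5 h6 h7 h8 h9 h10 h11
  refine ⟨h1, h2, h3, h4, h5, ?_, h8, h9, h10, h11⟩
  have hg0 : 0 < Real.log L := by linarith
  have h12 : (1 / (Real.log L)) / 4 * L = L / (4 * Real.log L) := by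
    field_simp
  rw [h12]
  have h13 : 1 ≤ L / (4 * Real.log L) := by
    rw [le_div_iff₀ (by positivity)]
    linarith
  have := Real.add_one_le_exp (L / (4 * Real.log L))
  linarith

/-- Main set, parameters depending on `Y`: the statement at one `Y`. -/
theorem KL_m_U {C ν : ℝ} (hν : 0 < ν) (hν1 : ν ≤ 1 / 16) (hC0 : 0 < C)
    (hC : ∀ (θ : ℝ) (N0 X0 U : ℕ) (η R : ℝ),
      1 ≤ X0 → 1 ≤ U → 0 < η → η ≤ 1 → 1 ≤ R → R ^ 3 ≤ N0 → (X0:ℝ) ≤ (N0:ℝ) ^ (2 / ν) →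
      (∀ n : ℕ, 1 ≤ n → n ≤ N0 → η ≤ dn ((n:ℝ) * θ)) →
      (16 * R ^ 2 / η ^ 2 ≤ X0 ∨ 2 * Real.sqrt R / η ≤ U) →
      ∑ x ∈ Ico X0 (8 * X0), ∑ x' ∈ (Ico X0 (8 * X0)).filter (· ≠ x),
          (Nat.gcd x x' : ℝ) * hh θ U (max x x' - min x x')
        ≤ C * (X0:ℝ) ^ 2 * (U:ℝ) ^ 2 * (1 + Real.log (X0:ℝ)) * (1 / (U:ℝ) + 1 / R))
    (ε ν₀ : ℝ) (Y Y' : ℕ) (hg : ν₀ = 1 / Real.log (Real.log Y)) (hY3 : 3 ≤ Y) (hY' : Y' ≤ 2 * Y)
    (hev : (Real.log (Real.log Y) ≤ (1 / 480) * (Real.log Y) ^ (1 / 2 : ℝ) ∧ 5 + 4 * Real.log (2 * Real.log Y + 2) ≤ 5 * Real.log (Real.log Y) ∧ (6:ℝ) ≤ Real.log (Real.log Y)) ∧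
    (∀ lam : ℝ, 1 ≤ lam → lam ≤ Real.log Y → 12 * lam ^ 2 * Real.sqrt (3 * C * (1 + Real.log Y)) ≤ Real.exp ((1 / (Real.log (Real.log Y))) / 4 * Real.log Y)) ∧
    (16:ℝ) ≤ Real.exp ((ν / 2) * Real.log Y) ∧ (1088:ℝ) ≤ Real.exp ((3 / 16) * Real.log Y) ∧
    (8:ℝ) ≤ Real.exp ((3 * ν / 8) * Real.log Y) ∧ (2:ℝ) ≤ Real.exp ((1 / (Real.log (Real.log Y))) / 4 * Real.log Y) ∧ (2:ℝ) ≤ Real.log Y ∧
    (Real.exp 26) ^ 2 ≤ Real.log (Real.log Y) ∧ 8 / ν ≤ Real.log (Real.log Y) ∧ (200:ℝ) ≤ Real.log Y)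
    (h1000 : 1000 ≤ (par ε ν₀ Y).lam) (hPQ : (par ε ν₀ Y).P ≤ (par ε ν₀ Y).Q0) (hT2 : 2 ≤ (par ε ν₀ Y).T)
    (hTle : ((par ε ν₀ Y).T:ℝ) ≤ 2 * (Y:ℝ) ^ ν₀) (hlamL : (par ε ν₀ Y).lam ≤ Real.log Y)
    (hlj : (par ε ν₀ Y).lam ^ (par ε ν₀ Y).j2 ≤ ((par ε ν₀ Y).T:ℝ) ^ ((1:ℝ) / 16))
    (β : ℝ) (hMA : MA β ⌊(Y:ℝ) ^ ν⌋₊ ((Y:ℝ) ^ (-(1 / 4 : ℝ)))) (k : ℕ) (hk : 1 ≤ k)
    (hkL : (k:ℝ) ≤ (Real.log Y) ^ (1 - ε)) (B M : ℕ) [NeZero M] (hM : 2 ≤ M) (hfits : ∀ a ∈ Ico 1 (Y' + 1), Fits B M a) :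
    let p := par ε ν₀ Y
    mm k (SS (B := B) (M := M) β (Mset p.P p.Q0 p.T p.T p.S2 p.j2 Y Y')) ^ 2
      ≤ Y * Real.exp (Real.log (Real.log Y) ^ 2 / 8) := by
  intro p
  obtain ⟨⟨hLA, hLC, hLD⟩, hAoff, hA16, hA1088, hA8, hA2, hAL, hg26, hgν, hL200⟩ := hev
  have hYpos : (0:ℝ) < Y := by
    have : (3:ℝ) ≤ Y := by exact_mod_cast hY3
    linarith
  obtain ⟨L, hLdef⟩ : ∃ L, L = Real.log Y := ⟨_, rfl⟩
  obtain ⟨g, hgdef⟩ : ∃ g, g = Real.log L := ⟨_, rfl⟩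
  rw [← hLdef] at hLA hLC hLD hAoff hA16 hA1088 hA8 hA2 hAL hg26 hgν hL200 hlamL hkL hg
  rw [← hLdef, ← hgdef]
  rw [← hgdef] at hLA hLC hLD hAoff hA2 hg26 hgν hg
  have hLpos : 0 < L := by linarith
  have he26 : (1:ℝ) ≤ Real.exp 26 := Real.one_le_exp (by norm_num)
  have hg1 : 1 ≤ g := by nlinarith
  have hg0 : 0 < g := by linarith
  have hge : Real.exp 26 * Real.exp 26 ≤ g := by nlinarith
  have hebig : (16384:ℝ) ≤ Real.exp 26 := by
    have h2 : Real.exp 26 = Real.exp 13 ^ 2 := by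
      rw [← Real.exp_nat_mul]
      norm_num
    have h3 : (14:ℝ) ≤ Real.exp 13 := by
      have := Real.add_one_le_exp (13:ℝ)
      linarith
    have h4 : Real.exp 13 = Real.exp 1 ^ 13 := by
      rw [← Real.exp_nat_mul]
      norm_num
    have h5 : (2:ℝ) ≤ Real.exp 1 := by
      have := Real.add_one_le_exp (1:ℝ)
      linarith
    have h6 : (8192:ℝ) ≤ Real.exp 13 := by
      rw [h4]
      calc (8192:ℝ) = 2 ^ 13 := by norm_num
        _ ≤ _ := pow_le_pow_left₀ (by norm_num) h5 13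
    rw [h2]
    nlinarith
  have hg16384 : (16384:ℝ) ≤ g := by nlinarith
  have hν₀pos : 0 < ν₀ := by
    rw [hg]
    positivity
  have hν₀1 : ν₀ ≤ ν / 8 := by
    rw [hg, div_le_div_iff₀ hg0 (by norm_num)]
    have : 8 ≤ ν * g := by
      rw [div_le_iff₀ hν] at hgν
      linarith
    linarith
  have hlam1 : (1:ℝ) ≤ p.lam := by
    have : (1000:ℝ) ≤ p.lam := h1000
    linarith
  have hkl : 50 * (k:ℝ) ≤ p.lam := by
    rw [p.hlam, p.hKb, ← hLdef]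
    have : (k:ℝ) ≤ (⌈L ^ (1 - ε)⌉₊ : ℝ) := hkL.trans (Nat.le_ceil _)
    linarith
  have hQ0 : p.lam ^ 16 ≤ p.Q0 := by
    rw [p.hQ0]
    exact Nat.le_ceil _
  have hQ4 : 4 ≤ p.Q0 := by
    have h1 : (1000:ℝ) ≤ p.lam ^ 16 := by
      calc (1000:ℝ) ≤ p.lam := h1000
        _ ≤ p.lam ^ 16 := le_self_pow₀ hlam1 (by norm_num)
    have h2 : (4:ℝ) ≤ p.Q0 := by linarith
    exact_mod_cast h2
  have hT2' : (2:ℝ) ≤ p.T := by exact_mod_cast hT2
  have hTpos : (0:ℝ) < p.T := by linarith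
  have hT1 : (1:ℝ) ≤ p.T := by linarith
  obtain ⟨t, ht⟩ : ∃ t : ℝ, t = (p.T:ℝ) ^ ((1:ℝ) / 16) := ⟨_, rfl⟩
  have ht1 : 1 ≤ t := by
    rw [ht]
    exact Real.one_le_rpow hT1 (by norm_num)
  have htT : t ^ 16 = p.T := by
    rw [ht, ← Real.rpow_natCast, ← Real.rpow_mul hTpos.le]
    norm_num
  have hS2 : (p.S2:ℝ) ≤ 2 * t := by
    rw [p.hS2, ← ht]
    have := Nat.ceil_lt_add_one (a := t) (by linarith)
    linarith
  have hlj' : p.lam ^ p.j2 ≤ t := by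
    rw [ht]
    exact hlj
  obtain ⟨y4, hy⟩ : ∃ y : ℝ, y = (Y:ℝ) ^ ((1:ℝ) / 4) := ⟨_, rfl⟩
  have hy41 : 1 ≤ y4 := by
    rw [hy]
    have : (1:ℝ) ≤ Y := by
      have : (3:ℝ) ≤ Y := by exact_mod_cast hY3
      linarith
    exact Real.one_le_rpow this (by norm_num)
  have hy4 : y4 ^ 4 = Y := by
    rw [hy, ← Real.rpow_natCast, ← Real.rpow_mul hYpos.le]
    norm_num
  have hrp : ∀ x : ℝ, (Y:ℝ) ^ x = Real.exp (x * L) := by
    intro x
    rw [Real.rpow_def_of_pos hYpos, hLdef, mul_comm]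
  have hTleexp : (p.T:ℝ) ≤ 2 * Real.exp (ν₀ * Real.log Y) := by
    rw [← hLdef, ← hrp]
    exact hTle
  have hTgeexp : Real.exp (ν₀ * L) ≤ (p.T:ℝ) := by
    rw [← hrp, p.hT]
    exact Nat.le_ceil _
  rw [← hLdef] at hTleexp
  obtain ⟨hN1, hN2, hN3⟩ := TY_facts Y p.T ν ν₀ hν hν₀pos hν₀1 hν1 hYpos (by rw [← hLdef]; exact hLpos) hT2 (by rw [← hLdef]; exact hTleexp)
    (by rw [← hLdef]; exact hA16) (by rw [← hLdef]; exact hA1088) (by rw [← hLdef]; exact hA8)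
  rw [← hy] at hN3
  have hoff' : 12 * p.lam ^ 2 * Real.sqrt (3 * C * (1 + L)) ≤ t ^ 4 := by
    refine (hAoff p.lam hlam1 hlamL).trans ?_
    have h1 : t ^ 4 = (p.T:ℝ) ^ ((1:ℝ) / 4) := by
      rw [ht, ← Real.rpow_natCast, ← Real.rpow_mul hTpos.le]
      norm_num
    rw [h1]
    have h2 : Real.exp ((1 / g) / 4 * L) = (Real.exp (ν₀ * L)) ^ ((1:ℝ) / 4) := by
      rw [← Real.exp_mul, hg]
      congr 1
      ring
    rw [h2]
    exact Real.rpow_le_rpow (Real.exp_pos _).le hTgeexp (by norm_num)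
  have hlogT : Real.log p.T ≤ (5 / 4) * (1 / g) * L := by
    rw [Real.log_le_iff_le_exp hTpos]
    refine hTleexp.trans ?_
    have h1 : (5 / 4) * (1 / g) * L = (1 / g) / 4 * L + ν₀ * L := by
      rw [hg]
      ring
    rw [h1, Real.exp_add]
    gcongr
  -- the free exponent
  obtain ⟨ε', hε'⟩ : ∃ ε' : ℝ, ε' = 2 * Real.log g / g := ⟨_, rfl⟩
  have hrp1 : L ^ (ε' / 4) = Real.sqrt g := by
    rw [Real.rpow_def_of_pos hLpos, ← hgdef, Real.sqrt_eq_rpow, Real.rpow_def_of_pos hg0, hε']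
    congr 1
    field_simp
    ring
  have hrp2 : L ^ ε' = g ^ 2 := by
    rw [Real.rpow_def_of_pos hLpos, ← hgdef, hε']
    have h1 : g * (2 * Real.log g / g) = ((2:ℕ):ℝ) * Real.log g := by
      push_cast
      field_simp
    rw [h1, Real.exp_nat_mul, Real.exp_log hg0]
  have hsqg : Real.exp 26 ≤ Real.sqrt g := by
    apply Real.le_sqrt_of_sq_le
    exact hg26
  have hN3' : ∀ (s X : ℕ), L ^ (ε' / 4) < s → p.lam ^ (16 * s) ≤ p.T → L / 2 ≤ Real.log X → 1 ≤ X →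
      ∃ η : ℝ, 0 < η ∧ η ≤ 1 / 4 ∧ 2 ≤ ⌈(p.T:ℝ) ^ ((1:ℝ) / (s:ℝ))⌉₊ ∧
        (p.lam ^ 2) ^ (s + 1) * ((X:ℝ) ^ (1 - η) *
          Real.exp (3 * ((⌈(p.T:ℝ) ^ ((1:ℝ) / (s:ℝ))⌉₊ : ℕ):ℝ) ^ η * Mer ⌈(p.T:ℝ) ^ ((1:ℝ) / (s:ℝ))⌉₊)) ≤ X := by
    intro s X h1 h2 h3 h4
    rw [hrp1] at h1
    have h5 : Real.exp 25 < s := by
      have h6 : Real.exp 25 ≤ Real.exp 26 := Real.exp_le_exp.2 (by norm_num)
      linarith
    exact N3_L L g p.lam s p.T X hgdef (by linarith) (by rw [← hgdef]; exact hLA) (by rw [← hgdef]; exact hLC) (by rw [← hgdef]; exact hLD) (by linarith) h5 h1000 hlamL h2 hlogT h3 h4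
  have hN4 : ∀ r : ℕ, (r:ℝ) ≤ 1 + L ^ (ε' / 4) → (p.lam ^ 2) ^ r ≤ Real.exp (L ^ ε' / 32) := by
    intro r hr
    rw [hrp1] at hr
    rw [hrp2]
    exact N4_L L g p.lam r hgdef (by linarith) hg16384 hlam1 hlamL hr
  have hmain : (4 * L) ^ 6 * (17 * Real.exp (L ^ ε' / 32)) * Real.exp (6 * (5 + 4 * Real.log (2 * L + 2))) ≤ Real.exp (L ^ ε' / 8) := by
    rw [hrp2]
    exact N1_L L g hgdef (by linarith) (by linarith)
  have hfinal := KLm_abstract (D := 2 / ν) (C := C) (ν := ν) (ε := ε') (ν₀ := ν₀) hν rfl hC0 hC k hk hM p.lam hkl hlam1 p.P p.Q0 p.T p.S2 p.j2 Y Y' β y4 t L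
    (by omega) hY' hT2 hPQ hQ4 hfits hQ0 ht1 htT hS2 hlj' hy41 hy4 hLdef hAL hMA hN1 hN2 hN3 hoff' hN4 hN3' hmain
  rw [hrp2] at hfinal
  exact hfinal

end

end Vale.Agent.Lib.P028L
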