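import Vale.Agent.Lib.P028L.Defs
import Vale.Agent.Lib.P028K.MLlarge

/-! Part MLlargeL: large `d`. Copy of `ML_large` of `P028K`, with the private helper lemmas copied; only `asymp_large` changes. -/

open Finset

namespace Vale.Agent.Lib.P028L

open Vale.Agent.Lib.P028
open Vale.Agent.Lib.P028T
open Vale.Agent.Lib.P028G
open Vale.Agent.Lib.P028K

noncomputable section

private lemma log_le_eps {ε₁ : ℝ} (hε₁ : 0 < ε₁) : ∃ x0 : ℝ, ∀ x, x0 ≤ x → Real.log x ≤ ε₁ * x := by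
  have h := Real.isLittleO_log_id_atTop.def hε₁
  obtain ⟨x0, hx0⟩ := Filter.eventually_atTop.1 h
  refine ⟨max x0 1, fun x hx => ?_⟩
  have h1 := hx0 x ((le_max_left _ _).trans hx)
  have h2 : (1:ℝ) ≤ x := (le_max_right _ _).trans hx
  simp only [id, Real.norm_eq_abs] at h1
  rw [abs_of_pos (by linarith : (0:ℝ) < x)] at h1
  exact (le_abs_self _).trans h1

/-- `log (n + 5) ≤ XL n / 2` for large `n`. -/
private lemma log_le_XL {n : ℕ} (hn : 100 ≤ n) : Real.log ((n:ℝ) + 5) ≤ XL n / 2 := by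
  have hnR : (100:ℝ) ≤ n := by exact_mod_cast hn
  have hpos : (0:ℝ) < (n:ℝ) + 2 := by linarith
  set l : ℝ := Real.log ((n:ℝ) + 2) with hl
  have hl3 : 3 ≤ l := by
    rw [hl, Real.le_log_iff_exp_le hpos]
    have h1 := Real.exp_one_lt_d9
    have h2 : Real.exp 3 = Real.exp 1 ^ 3 := by
      rw [← Real.exp_nat_mul]
      norm_num
    rw [h2]
    have h3 : Real.exp 1 ^ 3 ≤ (2.7182818286:ℝ) ^ 3 :=
      pow_le_pow_left₀ (Real.exp_pos 1).le h1.le 3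
    have h4 : (2.7182818286:ℝ) ^ 3 ≤ 100 := by norm_num
    linarith
  have h5 : Real.log ((n:ℝ) + 5) ≤ Real.log 3 + l := by
    rw [hl, ← Real.log_mul (by norm_num) hpos.ne']
    apply Real.log_le_log (by linarith)
    linarith
  have h6 : Real.log 3 ≤ 2 := by
    have := Real.log_le_sub_one_of_pos (by norm_num : (0:ℝ) < 3)
    linarith
  have h7 : XL n = l ^ 4 / 4 := rfl
  rw [h7]
  have h8 : l ^ 4 = l * l ^ 3 := by ring
  have h9 : (27:ℝ) ≤ l ^ 3 := by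
    have := pow_le_pow_left₀ (by norm_num : (0:ℝ) ≤ 3) hl3 3
    linarith
  have h10 : l * 27 ≤ l * l ^ 3 := mul_le_mul_of_nonneg_left h9 (by linarith)
  have h11 : l ^ 4 / 4 / 2 = l ^ 4 / 8 := by ring
  rw [h11, h8]
  linarith

/-- The asymptotics for the large `d` case. -/
private lemma asymp_large_L {δ C₁ : ℝ} (hδ : 0 < δ) (hC₁ : 0 ≤ C₁) :
    ∃ n0 : ℕ, ∀ n : ℕ, n0 ≤ n → ((n:ℝ) + 2 + 2) + GG n * Real.exp (-(δ * n)) * (C₁ + 100 * ((n:ℝ) + 2))
      ≤ Real.exp (XL n / 2) := by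
  set ε₁ : ℝ := (δ / 200) ^ 2 / 6 with hε₁
  have hε₁0 : 0 < ε₁ := by positivity
  obtain ⟨x1, hx1⟩ := log_le_eps hε₁0
  have hε₂0 : 0 < δ / 602 := by positivity
  obtain ⟨x2, hx2⟩ := log_le_eps hε₂0
  obtain ⟨n1, hn1⟩ := exists_nat_ge (max x1 x2)
  obtain ⟨n2, hn2⟩ := exists_nat_ge C₁
  refine ⟨max (max n1 n2) 100, fun n hn => ?_⟩
  have hn1' : n1 ≤ n := (le_max_left _ _).trans ((le_max_left _ _).trans hn)
  have hn2' : n2 ≤ n := (le_max_right _ _).trans ((le_max_left _ _).trans hn)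
  have hn3' : 100 ≤ n := (le_max_right _ _).trans hn
  have hnR : (100:ℝ) ≤ n := by exact_mod_cast hn3'
  have hn1R : (n1:ℝ) ≤ n := by exact_mod_cast hn1'
  have hn2R : (n2:ℝ) ≤ n := by exact_mod_cast hn2'
  have hmax := hn1.trans hn1R
  have hx1n : x1 ≤ n := (le_max_left _ _).trans hmax
  have hx2n : x2 ≤ n := (le_max_right _ _).trans hmax
  have hC₁n : C₁ ≤ n := hn2.trans hn2R
  -- the excess
  have hAA : 100 * AA n ≤ (δ / 2) * n := by
    have h5 := hx1 ((n:ℝ) + 2) (by linarith)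
    have h6 : 0 ≤ Real.log ((n:ℝ) + 2) := Real.log_nonneg (by linarith)
    have h7 : ((n:ℝ) + 1) * Real.log ((n:ℝ) + 2) ≤ ((δ / 200) * n) ^ 2 := by
      have h8 : ((n:ℝ) + 1) * Real.log ((n:ℝ) + 2) ≤ (2 * (n:ℝ)) * (ε₁ * ((n:ℝ) + 2)) := by
        apply mul_le_mul (by linarith) h5 h6 (by linarith)
      have h9 : (2 * (n:ℝ)) * (ε₁ * ((n:ℝ) + 2)) ≤ (2 * (n:ℝ)) * (ε₁ * (3 * (n:ℝ))) := by
        apply mul_le_mul_of_nonneg_left _ (by linarith)
        apply mul_le_mul_of_nonneg_left _ hε₁0.le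
        linarith
      have h10 : (2 * (n:ℝ)) * (ε₁ * (3 * (n:ℝ))) = ((δ / 200) * n) ^ 2 := by
        rw [hε₁]
        ring
      linarith
    have h11 : AA n ≤ (δ / 200) * n := by
      unfold AA
      rw [Real.sqrt_le_left (by positivity)]
      exact h7
    linarith
  have hpoly : C₁ + 100 * ((n:ℝ) + 2) ≤ Real.exp ((δ / 2) * n) := by
    have h5 : 0 < C₁ + 100 * ((n:ℝ) + 2) := by linarith
    have h6 := hx2 (C₁ + 100 * ((n:ℝ) + 2)) (by linarith)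
    rw [← Real.log_le_iff_le_exp h5]
    refine h6.trans ?_
    have h8 : C₁ + 100 * ((n:ℝ) + 2) ≤ 301 * (n:ℝ) := by linarith
    have h9 : δ / 602 * (C₁ + 100 * ((n:ℝ) + 2)) ≤ δ / 602 * (301 * (n:ℝ)) :=
      mul_le_mul_of_nonneg_left h8 hε₂0.le
    have h10 : δ / 602 * (301 * (n:ℝ)) = (δ / 2) * n := by ring
    linarith
  have hone : GG n * Real.exp (-(δ * n)) * (C₁ + 100 * ((n:ℝ) + 2)) ≤ 1 := by
    have h5 : GG n * Real.exp (-(δ * n)) ≤ Real.exp (-((δ / 2) * n)) := by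
      unfold GG
      rw [← Real.exp_add]
      apply Real.exp_le_exp.2
      have : -((δ / 2) * (n:ℝ)) = (δ / 2) * n - δ * n := by ring
      rw [this]
      linarith
    have h6 : GG n * Real.exp (-(δ * n)) * (C₁ + 100 * ((n:ℝ) + 2)) ≤
        Real.exp (-((δ / 2) * n)) * Real.exp ((δ / 2) * n) :=
      mul_le_mul h5 hpoly (by linarith) (Real.exp_pos _).le
    rw [← Real.exp_add, neg_add_cancel, Real.exp_zero] at h6
    exact h6
  have hlog : Real.log ((n:ℝ) + 5) ≤ XL n / 2 := log_le_XL hn3'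
  have h5 : (n:ℝ) + 5 ≤ Real.exp (XL n / 2) := by
    rwa [← Real.log_le_iff_le_exp (by linarith)]
  linarith

/-- The exponents of the large `d` case. -/
private lemma exps_large {m c₀ u : ℝ} (hm : 1 ≤ m) (hc₀ : 0 < c₀) (hu0 : 0 < u) (hu1 : u ≤ 1) :
    m ^ (u / 8) ≤ (1 / c₀) ^ u * m ^ (-(5 * u / 16)) * (c₀ * Real.sqrt (m ^ (1 - u / 8))) ^ u ∧
    m ^ (u / 8) * Real.sqrt (2 * m) ≤ Real.sqrt 2 * (m ^ (-(5 * u / 16)) * m) := by
  have hm0 : 0 < m := by linarith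
  constructor
  · have h1 : Real.sqrt (m ^ (1 - u / 8)) = m ^ ((1 - u / 8) / 2) := by
      rw [Real.sqrt_eq_rpow, ← Real.rpow_mul hm0.le]
      congr 1
      ring
    rw [h1, Real.mul_rpow hc₀.le (Real.rpow_nonneg hm0.le _), ← Real.rpow_mul hm0.le]
    have h2 : (1 / c₀) ^ u * c₀ ^ u = 1 := by
      rw [← Real.mul_rpow (by positivity) hc₀.le]
      rw [one_div, inv_mul_cancel₀ hc₀.ne', Real.one_rpow]
    have h3 : (1 / c₀) ^ u * m ^ (-(5 * u / 16)) * (c₀ ^ u * m ^ ((1 - u / 8) / 2 * u)) =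
        ((1 / c₀) ^ u * c₀ ^ u) * (m ^ (-(5 * u / 16)) * m ^ ((1 - u / 8) / 2 * u)) := by ring
    rw [h3, h2, one_mul, ← Real.rpow_add hm0]
    apply Real.rpow_le_rpow_of_exponent_le hm
    nlinarith
  · rw [Real.sqrt_mul (by norm_num : (0:ℝ) ≤ 2)]
    have h1 : Real.sqrt m = m ^ ((1:ℝ) / 2) := Real.sqrt_eq_rpow m
    rw [h1]
    have h2 : m ^ (u / 8) * (Real.sqrt 2 * m ^ ((1:ℝ) / 2)) =
        Real.sqrt 2 * (m ^ (u / 8) * m ^ ((1:ℝ) / 2)) := by ring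
    rw [h2, ← Real.rpow_add hm0]
    apply mul_le_mul_of_nonneg_left _ (Real.sqrt_nonneg _)
    have h3 : m ^ (-(5 * u / 16)) * m = m ^ (-(5 * u / 16) + 1) := by
      rw [Real.rpow_add hm0, Real.rpow_one]
    rw [h3]
    apply Real.rpow_le_rpow_of_exponent_le hm
    linarith

/-- The bound for the off-diagonal weight. -/
private lemma wb_num {m X₀ y τ A C₁ Wb N : ℝ} (hm1 : 1 ≤ m) (hX₀0 : 0 < X₀) (hA0 : 0 ≤ A) (hτ0 : 0 < τ)
    (hA : y ≤ A * τ * X₀) (hB : y * Real.sqrt (2 * m) ≤ Real.sqrt 2 * (τ * m))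
    (hlogm : 1 + Real.log (2 * m) ≤ N) (hlog0 : 0 ≤ Real.log (2 * m)) (hy1 : 1 ≤ y)
    (hC₁ : C₁ = 128 * A) (hWb : Wb = 32 * m / X₀ + 16 * Real.sqrt (2 * m) * (1 + Real.log (2 * m))) :
    4 * y * Wb ≤ m * (τ * (C₁ + 100 * N)) := by
  have hm0 : 0 < m := by linarith
  have hN : 0 ≤ N := by linarith
  have h1 : y / X₀ ≤ A * τ := by
    rw [div_le_iff₀ hX₀0]
    exact hA
  have h2 : 4 * y * (32 * m / X₀) = 128 * m * (y / X₀) := by
    field_simp
    ring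
  have h3 : 128 * m * (y / X₀) ≤ 128 * m * (A * τ) :=
    mul_le_mul_of_nonneg_left h1 (by positivity)
  have hs2 : Real.sqrt 2 ≤ 3 / 2 := by
    rw [Real.sqrt_le_left (by norm_num)]
    norm_num
  have h4 : y * Real.sqrt (2 * m) ≤ 3 / 2 * (τ * m) :=
    hB.trans (mul_le_mul_of_nonneg_right hs2 (by positivity))
  have h5 : 4 * y * (16 * Real.sqrt (2 * m) * (1 + Real.log (2 * m))) =
      64 * (y * Real.sqrt (2 * m)) * (1 + Real.log (2 * m)) := by ring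
  have h0 : 0 ≤ y * Real.sqrt (2 * m) := by
    have h00 : 0 ≤ Real.sqrt (2 * m) := Real.sqrt_nonneg _
    have h01 : 0 ≤ y := by linarith
    exact mul_nonneg h01 h00
  have h6 : 64 * (y * Real.sqrt (2 * m)) * (1 + Real.log (2 * m)) ≤
      64 * (3 / 2 * (τ * m)) * N := by
    apply mul_le_mul (by linarith) hlogm (by linarith) (by positivity)
  have h7 : 64 * (3 / 2 * (τ * m)) * N ≤ m * (τ * (100 * N)) := by
    have h8 : 0 ≤ τ * m * N := by positivity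
    nlinarith
  have h9 : m * (τ * (C₁ + 100 * N)) = 128 * m * (A * τ) + m * (τ * (100 * N)) := by
    rw [hC₁]
    ring
  rw [hWb, mul_add, h2, h5, h9]
  linarith

/-- The assembly of the large `d` case. -/
private lemma ml_assemble {L K m τ Wb G y Yc BB W1 W2 N E Ex C₁ : ℝ} (hL : 0 ≤ L) (hK : 0 ≤ K) (hm : 0 ≤ m)
    (hG : 1 ≤ G) (hτ : 0 ≤ τ) (hWb : 0 ≤ Wb) (hC : 0 ≤ C₁ + 100 * N) (hy1 : 1 ≤ y) (hY2 : Yc ≤ 2 * y)
    (hcount : BB ≤ 2 * Yc * K * G) (hWby : 4 * y * Wb ≤ m * (τ * (C₁ + 100 * N)))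
    (hlogm : 1 + W1 ≤ N) (hlog0 : 0 ≤ W1) (hτle : τ ≤ Ex)
    (hE : (N + 2) + G * Ex * (C₁ + 100 * N) ≤ E) (hW2 : W2 = m * (1 + W1) + 2 * m) :
    L * K * W2 + L * Wb * BB ≤ L * K * m * E := by
  have hsecond : L * Wb * BB ≤ L * K * G * (m * (τ * (C₁ + 100 * N))) := by
    have h1 : BB ≤ 4 * y * K * G := by
      refine hcount.trans ?_
      have h2 : 0 ≤ K * G := by positivity
      have h3 : 2 * Yc * K * G = 2 * Yc * (K * G) := by ring
      have h4 : 4 * y * K * G = 4 * y * (K * G) := by ring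
      rw [h3, h4]
      apply mul_le_mul_of_nonneg_right _ h2
      linarith
    have h2 : L * Wb * BB ≤ L * Wb * (4 * y * K * G) :=
      mul_le_mul_of_nonneg_left h1 (by positivity)
    refine h2.trans ?_
    have h3 : L * Wb * (4 * y * K * G) = L * K * G * (4 * y * Wb) := by ring
    rw [h3]
    exact mul_le_mul_of_nonneg_left hWby (by positivity)
  have hfirst : W2 ≤ m * (N + 2) := by
    rw [hW2]
    nlinarith
  have hfirst' : L * K * W2 ≤ L * K * (m * (N + 2)) :=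
    mul_le_mul_of_nonneg_left hfirst (by positivity)
  have hfinal : (N + 2) + G * τ * (C₁ + 100 * N) ≤ E := by
    refine le_trans ?_ hE
    have h1 : G * τ ≤ G * Ex := mul_le_mul_of_nonneg_left hτle (by linarith)
    have h2 : G * τ * (C₁ + 100 * N) ≤ G * Ex * (C₁ + 100 * N) :=
      mul_le_mul_of_nonneg_right h1 hC
    linarith
  have hLKm : 0 ≤ L * K * m := by positivity
  have hend := mul_le_mul_of_nonneg_left hfinal hLKm
  have hexp : L * K * m * ((N + 2) + G * τ * (C₁ + 100 * N)) =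
      L * K * (m * (N + 2)) + L * K * G * (m * (τ * (C₁ + 100 * N))) := by
    ring
  rw [hexp] at hend
  linarith

/-- Large `d`. Copy of `ML_large`. -/
theorem ML_large_L {γ c₀ : ℝ} {κ : ℕ} (hγ : Dio γ c₀ κ) (hc₀ : 0 < c₀) (hκ : 1 ≤ κ) :
    ∃ n0 : ℕ, ∀ n : ℕ, n0 ≤ n → ∀ F : Finset ℕ, (∀ q ∈ F, 1 ≤ q) → 1 ≤ F.card →
      (2:ℝ) ^ n ≤ F.card → (F.card : ℝ) ≤ 2 * 2 ^ n * GG n → ∀ Mm L0 : ℕ, ((2:ℝ) ^ n) ^ ((1:ℝ) / (4 * ((κ:ℝ) + 1))) ≤ Mm → Mm ≤ 2 ^ n →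
      1 ≤ L0 → L0 ≤ 2 ^ n →
      ∑ j ∈ Ico 1 L0, ∑ d ∈ Ioc ⌊(Mm:ℝ) ^ (1 - (1:ℝ) / (8 * κ))⌋₊ (2 * Mm), (BBc F (Nn Mm d) (Nn Mm d) (((j * d : ℕ):ℝ) * γ)).re
        ≤ (L0:ℝ) * F.card * Mm * Real.exp (XL n / 2) := by
  have hκR : (1:ℝ) ≤ κ := by exact_mod_cast hκ
  have hκ0 : (0:ℝ) < κ := by linarith
  set u : ℝ := (1:ℝ) / κ with hu
  have hu0 : 0 < u := by positivity
  have hu1 : u ≤ 1 := by
    rw [hu, div_le_one hκ0]
    exact hκR
  have hc8 : (1:ℝ) / (8 * κ) = u / 8 := by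
    rw [hu]
    field_simp
  set v : ℝ := (1:ℝ) / (4 * ((κ:ℝ) + 1)) with hv
  have hv0 : 0 < v := by positivity
  set δ : ℝ := Real.log 2 * (v * (5 * u / 16)) with hδ
  have hlog2 : 0 < Real.log 2 := Real.log_pos (by norm_num)
  have hδ0 : 0 < δ := by positivity
  set C₁ : ℝ := 128 * (1 / c₀) ^ u with hC₁
  have hC₁0 : 0 ≤ C₁ := by positivity
  obtain ⟨n1, hn1⟩ := asymp_large_L (C₁ := C₁) hδ0 hC₁0
  refine ⟨max n1 2, fun n hn F hF hK1 hKlow hKup Mm L0 hMlow hMup hL1 _ => ?_⟩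
  have hn1' : n1 ≤ n := (le_max_left _ _).trans hn
  have hn2' : 2 ≤ n := (le_max_right _ _).trans hn
  have h2n : (4:ℝ) ≤ (2:ℝ) ^ n := by
    have : (2:ℝ) ^ 2 ≤ (2:ℝ) ^ n := pow_le_pow_right₀ (by norm_num) hn2'
    linarith
  -- `Mm` is at least one
  have hm1 : (1:ℝ) ≤ (Mm:ℝ) := by
    refine le_trans ?_ hMlow
    exact Real.one_le_rpow (by linarith) hv0.le
  have hM : 1 ≤ Mm := by exact_mod_cast hm1
  set m : ℝ := (Mm:ℝ) with hm
  have hm0 : 0 < m := by linarith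
  rw [hc8]
  set D0 := ⌊m ^ (1 - u / 8)⌋₊ with hD0
  set y : ℝ := m ^ (u / 8) with hy
  set z : ℝ := m ^ (1 - u / 8) with hz
  have hyz : y * z = m := by
    rw [hy, hz, ← Real.rpow_add hm0]
    have : u / 8 + (1 - u / 8) = 1 := by ring
    rw [this, Real.rpow_one]
  have hy1 : 1 ≤ y := Real.one_le_rpow hm1 (by positivity)
  have hz0 : 0 < z := Real.rpow_pos_of_pos hm0 _
  set Y := ⌈y⌉₊ with hY
  have hYy : y ≤ Y := Nat.le_ceil y
  have hY2 : (Y:ℝ) ≤ 2 * y := by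
    have := Nat.ceil_lt_add_one (by linarith : (0:ℝ) ≤ y)
    linarith
  set X₀ : ℝ := (c₀ * Real.sqrt z) ^ u with hX₀
  have hsz : 0 < Real.sqrt z := Real.sqrt_pos.2 hz0
  have hX₀0 : 0 < X₀ := Real.rpow_pos_of_pos (by positivity) _
  have hX : ∀ G : ℕ, D0 < G → X₀ ≤ (c₀ * Real.sqrt G) ^ ((1:ℝ) / κ) := by
    intro G hG
    have h1 : z < G := Nat.lt_of_floor_lt hG
    apply Real.rpow_le_rpow (by positivity) _ hu0.le
    apply mul_le_mul_of_nonneg_left _ hc₀.le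
    exact Real.sqrt_le_sqrt h1.le
  have hYb : ∀ d n', D0 < d → d * n' < 2 * Mm → n' ≤ 2 * Y := by
    intro d n' hd hdn
    have h1 : z < d := Nat.lt_of_floor_lt hd
    have h2 : ((d * n' : ℕ) : ℝ) < ((2 * Mm : ℕ) : ℝ) := by exact_mod_cast hdn
    push_cast at h2
    have h3 : z * n' ≤ d * n' := mul_le_mul_of_nonneg_right h1.le (Nat.cast_nonneg _)
    have h4 : z * (n':ℝ) < z * (2 * y) := by
      have : z * (2 * y) = 2 * m := by
        rw [← hyz]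
        ring
      rw [this]
      linarith
    have h5 : (n':ℝ) < 2 * y := lt_of_mul_lt_mul_left h4 hz0.le
    have h6 : (n':ℝ) < ((2 * Y : ℕ) : ℝ) := by
      push_cast
      linarith
    have h7 : n' < 2 * Y := by exact_mod_cast h6
    exact h7.le
  have hcore := ml_core_large hγ hc₀ hκ hF (L0 := L0) hM hX₀0 hX hYb
  refine hcore.trans ?_
  -- the count
  set K : ℝ := (F.card : ℝ) with hK
  have hK0 : 0 < K := by linarith
  have hGG : 1 ≤ GG n := Real.one_le_exp (by have := AA_pos n; positivity)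
  have hyM : y ≤ m := by
    have h1 : m ^ (u / 8) ≤ m ^ (1:ℝ) := Real.rpow_le_rpow_of_exponent_le hm1 (by linarith)
    rwa [Real.rpow_one] at h1
  have hm2n : m ≤ (2:ℝ) ^ n := by
    have : ((Mm : ℕ) : ℝ) ≤ ((2 ^ n : ℕ) : ℝ) := by exact_mod_cast hMup
    push_cast at this
    exact this
  have hYK : 2 * Y ≤ F.card ^ 2 := by
    have h1 : ((2 * Y : ℕ) : ℝ) ≤ ((F.card ^ 2 : ℕ) : ℝ) := by
      push_cast
      have h2 : 2 * (Y:ℝ) ≤ 4 * (2:ℝ) ^ n := by linarith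
      have h3 : 4 * (2:ℝ) ^ n ≤ (2:ℝ) ^ n * (2:ℝ) ^ n :=
        mul_le_mul_of_nonneg_right h2n (by positivity)
      have h4 : (2:ℝ) ^ n * (2:ℝ) ^ n ≤ K * K :=
        mul_le_mul hKlow hKlow (by positivity) (by linarith)
      have h5 : K * K = K ^ 2 := by ring
      linarith
    exact_mod_cast h1
  have hcount := BB_trivial n F (Icc 1 (2 * Y)) 0 Y hF hK1 hKup
    (fun x hx => Finset.mem_Icc.1 hx) hYK
  -- the size of `τ`
  set τ : ℝ := m ^ (-(5 * u / 16)) with hτ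
  have hτ0 : 0 < τ := Real.rpow_pos_of_pos hm0 _
  have hτle : τ ≤ Real.exp (-(δ * n)) := by
    have h1 : τ ≤ (((2:ℝ) ^ n) ^ v) ^ (-(5 * u / 16)) :=
      Real.rpow_le_rpow_of_nonpos (Real.rpow_pos_of_pos (by positivity) _) hMlow
        (by have : 0 < 5 * u / 16 := by positivity
            linarith)
    refine h1.trans (le_of_eq ?_)
    rw [← Real.rpow_mul (by positivity), Real.rpow_def_of_pos (by positivity), Real.log_pow]
    congr 1
    rw [hδ]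
    ring
  obtain ⟨hA, hB⟩ := exps_large hm1 hc₀ hu0 hu1
  have hlogm : 1 + Real.log (2 * m) ≤ (n:ℝ) + 2 := by
    have h1 : 2 * m ≤ (2:ℝ) ^ (n + 1) := by
      rw [pow_succ]
      linarith
    have h2 : Real.log (2 * m) ≤ ((n + 1 : ℕ):ℝ) * Real.log 2 := by
      rw [← Real.log_pow]
      exact Real.log_le_log (by linarith) h1
    have h3 : Real.log 2 ≤ 1 := by
      have := Real.log_le_sub_one_of_pos (by norm_num : (0:ℝ) < 2)
      linarith
    push_cast at h2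
    have hn0 : (0:ℝ) ≤ (n:ℝ) + 1 := by positivity
    nlinarith
  have hlog0 : 0 ≤ Real.log (2 * m) := Real.log_nonneg (by linarith)
  set Wb : ℝ := 32 * m / X₀ + 16 * Real.sqrt (2 * m) * (1 + Real.log (2 * m)) with hWb
  have hWb0 : 0 ≤ Wb := by positivity
  have hL0 : (0:ℝ) ≤ L0 := Nat.cast_nonneg _
  have hWby : 4 * y * Wb ≤ m * (τ * (C₁ + 100 * ((n:ℝ) + 2))) :=
    wb_num hm1 hX₀0 (by positivity) hτ0 hA hB hlogm hlog0 hy1 hC₁ hWb
  have hE := hn1 n hn1'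
  set E : ℝ := Real.exp (XL n / 2) with hEdef
  have hCn : 0 ≤ C₁ + 100 * ((n:ℝ) + 2) := by
    have : (0:ℝ) ≤ (n:ℝ) := Nat.cast_nonneg n
    linarith
  exact ml_assemble hL0 hK0.le hm0.le hGG hτ0.le hWb0 hCn hy1 hY2 hcount hWby
    hlogm hlog0 hτle hE rfl


end

end Vale.Agent.Lib.P028L
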